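import Vale.Agent.P139Z.ODefs
import Vale.Agent.P139Z.Sym.Calc

/-! Auxiliary facts for the symmetry modes: conjugation, reduction, bounded functions. -/

open Set Filter Topology MeasureTheory Complex
open scoped NNReal ENNReal ComplexConjugate ContDiff

namespace Vale.Agent.P139Z.Modes

variable {m : ℕ} {β : ℝ} {G : ℝ → ℂ}

theorem deriv_cj (f : ℝ → ℂ) : deriv (fun x => conj (f x)) = fun x => conj (deriv f x) := by
  ext x
  exact deriv.star

theorem iteratedDeriv_cj (j : ℕ) (f : ℝ → ℂ) :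
    iteratedDeriv j (fun x => conj (f x)) = fun x => conj (iteratedDeriv j f x) := by
  induction j with
  | zero => simp
  | succ j ih => rw [iteratedDeriv_succ, ih, deriv_cj, iteratedDeriv_succ]

theorem conj_pot1 (z : ℂ) : conj (pot1 m z) = pot1 m z := by
  simp [pot1]

theorem opG_eq (l : ℕ) (lam : ℂ) (f g : ℝ → ℂ) (r : ℝ) :
    opG m β G l lam f g r
      = conj (opF m β G l (conj lam) (fun x => conj (g x)) (fun x => conj (f x)) r) := by
  simp only [opG, opF, iteratedDeriv_cj, deriv_cj, map_add, map_sub, map_mul, map_div₀, map_pow,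
    Complex.conj_conj, Complex.conj_ofReal, Complex.conj_I, map_natCast, map_ofNat, conj_pot1]
  ring

theorem opF_eq (l : ℕ) (lam : ℂ) (f g : ℝ → ℂ) (r : ℝ) :
    opF m β G l lam f g r
      = conj (opG m β G l (conj lam) (fun x => conj (g x)) (fun x => conj (f x)) r) := by
  rw [opG_eq]
  simp only [Complex.conj_conj]

theorem hasDerivAt_pw (l : ℕ) {t : ℝ} (ht : t ≠ 0) :
    HasDerivAt (fun t : ℝ => (t : ℂ) ^ l) (l * (t : ℂ) ^ l / t) t := by
  have h : (t : ℂ) ≠ 0 := Complex.ofReal_ne_zero.2 ht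
  refine ((Sym.hasDerivAt_ofReal' t).fun_pow l).congr_deriv ?_
  rcases l with _ | l
  · simp
  · simp only [Nat.add_sub_cancel]
    field_simp
    ring

theorem hasDerivAt_sq {F : ℝ → ℂ} {F' : ℂ} {t : ℝ} (h : HasDerivAt F F' (t ^ 2)) :
    HasDerivAt (fun t : ℝ => F (t ^ 2)) (2 * t * F') t := by
  have h1 : HasDerivAt (fun t : ℝ => t ^ 2) (2 * t) t := by simpa using hasDerivAt_pow 2 t
  have h2 := HasDerivAt.scomp (h := fun t : ℝ => t ^ 2) t h h1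
  refine HasDerivAt.congr_deriv h2 ?_
  simp

theorem hasDerivAt_lift (l : ℕ) {F : ℝ → ℂ} {F' : ℂ} {t : ℝ} (ht : t ≠ 0)
    (h : HasDerivAt F F' (t ^ 2)) :
    HasDerivAt (fun t : ℝ => (t : ℂ) ^ l * F (t ^ 2))
      (l * (t : ℂ) ^ l / t * F (t ^ 2) + (t : ℂ) ^ l * (2 * t * F')) t :=
  (hasDerivAt_pw l ht).fun_mul (hasDerivAt_sq h)

theorem deriv_lift (l : ℕ) {f F : ℝ → ℂ} {r : ℝ} (hr : 0 < r) (hF : ContDiffAt ℝ 2 F (r ^ 2))
    (e : f =ᶠ[𝓝 r] fun t : ℝ => (t : ℂ) ^ l * F (t ^ 2)) :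
    deriv f =ᶠ[𝓝 r] fun t : ℝ =>
      l * (t : ℂ) ^ l / t * F (t ^ 2) + (t : ℂ) ^ l * (2 * t * deriv F (t ^ 2)) := by
  have h1 : ∀ᶠ t in 𝓝 r, ContDiffAt ℝ 2 F (t ^ 2) :=
    ((continuous_pow 2).tendsto r).eventually (hF.eventually (by simp))
  filter_upwards [e.deriv, h1, lt_mem_nhds hr] with t h2 h3 h4
  rw [h2]
  exact (hasDerivAt_lift l h4.ne' (h3.differentiableAt (by simp)).hasDerivAt).deriv

/-- The reduction identity. -/
theorem reduce (l : ℕ) (c : ℂ) {f F : ℝ → ℂ} {r : ℝ} (hr : 0 < r)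
    (hF : ContDiffAt ℝ 2 F (r ^ 2)) (e : f =ᶠ[𝓝 r] fun t : ℝ => (t : ℂ) ^ l * F (t ^ 2)) :
    iteratedDeriv 2 f r + 11 / (r : ℂ) * deriv f r - (l : ℂ) * ((l : ℂ) + 10) / (r : ℂ) ^ 2 * f r
      + I / 2 * r * deriv f r + I * c * f r
      = (r : ℂ) ^ l * Mop (l / 2 + c) (6 + l) F (r ^ 2) := by
  have h : (r : ℂ) ≠ 0 := Complex.ofReal_ne_zero.2 hr.ne'
  have h1 := deriv_lift l hr hF e
  have d0 : HasDerivAt F (deriv F (r ^ 2)) (r ^ 2) := (hF.differentiableAt (by simp)).hasDerivAt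
  have d1 : HasDerivAt (deriv F) (deriv (deriv F) (r ^ 2)) (r ^ 2) :=
    ((hF.derivWithin (m := 1) (by norm_num)).differentiableAt (by simp)).hasDerivAt
  have p := hasDerivAt_pw l hr.ne'
  have o := Sym.hasDerivAt_ofReal' r
  have h2 := ((((p.const_mul (l : ℂ)).fun_div o h).fun_mul (hasDerivAt_sq d0)).fun_add
    (p.fun_mul ((o.const_mul 2).fun_mul (hasDerivAt_sq d1)))).deriv
  rw [iteratedDeriv_succ, iteratedDeriv_one, h1.deriv_eq, h2, h1.eq_of_nhds, e.eq_of_nhds, Mop,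
    iteratedDeriv_succ, iteratedDeriv_one]
  push_cast
  field_simp
  ring

theorem opF_lift (l : ℕ) (lam : ℂ) {f g F : ℝ → ℂ} {r : ℝ} (hr : 0 < r)
    (hF : ContDiffAt ℝ 2 F (r ^ 2)) (e : f =ᶠ[𝓝 r] fun t : ℝ => (t : ℂ) ^ l * F (t ^ 2)) :
    opF m β G l lam f g r = (r : ℂ) ^ l * Mop (l / 2 + lam + Lam m β) (6 + l) F (r ^ 2)
      - pot1 m (G (r ^ 2)) * f r - pot2 m (G (r ^ 2)) * g r := by
  rw [add_assoc, ← reduce l (lam + Lam m β) hr hF e]
  rfl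

theorem lift_red (l : ℕ) (f : ℝ → ℂ) {r : ℝ} (hr : 0 < r) :
    f =ᶠ[𝓝 r] fun t : ℝ => (t : ℂ) ^ l * red l f (t ^ 2) := by
  filter_upwards [lt_mem_nhds hr] with t ht
  have h : (t : ℂ) ≠ 0 := Complex.ofReal_ne_zero.2 ht.ne'
  rw [red, Real.sqrt_sq ht.le]
  field_simp

theorem red_cj (l : ℕ) (f : ℝ → ℂ) :
    red l (fun x => conj (f x)) = fun ρ => conj (red l f ρ) := by
  ext ρ
  simp [red]

theorem contDiffOn_red (l : ℕ) {K : ℕ} {f : ℝ → ℂ} (hf : ContDiff ℝ K f) :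
    ContDiffOn ℝ K (red l f) (Ioi 0) := by
  have h1 : ContDiffOn ℝ K (fun ρ : ℝ => Real.sqrt ρ) (Ioi 0) :=
    contDiffOn_id.sqrt fun x hx => (mem_Ioi.1 hx).ne'
  have h2 : ContDiffOn ℝ K (fun ρ : ℝ => ((Real.sqrt ρ : ℝ) : ℂ)) (Ioi 0) :=
    Complex.ofRealCLM.contDiff.comp_contDiffOn h1
  refine ((hf.comp_contDiffOn h1).mul ((h2.pow l).inv fun x hx => ?_)).congr fun x _ => ?_
  · exact pow_ne_zero _ (Complex.ofReal_ne_zero.2 (Real.sqrt_pos.2 hx).ne')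
  · exact div_eq_mul_inv _ _

/-! ### bounded functions -/

variable {K : ℕ} {f g : ℝ → ℂ}

theorem bdd_add (hf : BddC K f) (hg : BddC K g) : BddC K fun r => f r + g r := by
  obtain ⟨C, hC⟩ := hf.bdd
  obtain ⟨D, hD⟩ := hg.bdd
  refine ⟨hf.smooth.add hg.smooth, C + D, fun j hj r => ?_⟩
  have hj' : (j : WithTop ℕ∞) ≤ K := by exact_mod_cast hj
  rw [iteratedDeriv_fun_add (hf.smooth.of_le hj').contDiffAt (hg.smooth.of_le hj').contDiffAt]
  exact (norm_add_le _ _).trans (add_le_add (hC j hj r) (hD j hj r))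

theorem bdd_const_mul (hf : BddC K f) (c : ℂ) : BddC K fun r => c * f r := by
  obtain ⟨C, hC⟩ := hf.bdd
  refine ⟨contDiff_const.mul hf.smooth, ‖c‖ * C, fun j hj r => ?_⟩
  rw [iteratedDeriv_const_mul_field, norm_mul]
  exact mul_le_mul_of_nonneg_left (hC j hj r) (norm_nonneg _)

theorem bdd_sub (hf : BddC K f) (hg : BddC K g) : BddC K fun r => f r - g r := by
  simpa [sub_eq_add_neg] using bdd_add hf (bdd_const_mul hg (-1))

theorem bdd_cj (hf : BddC K f) : BddC K fun r => conj (f r) := by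
  obtain ⟨C, hC⟩ := hf.bdd
  refine ⟨Complex.conjCLE.contDiff.comp hf.smooth, C, fun j hj r => ?_⟩
  rw [iteratedDeriv_cj]
  simpa using hC j hj r

theorem bdd_zero : BddC K fun _ => 0 :=
  ⟨contDiff_const, 0, fun j _ r => by simp⟩

theorem bdd_deriv (hf : BddC (K + 1) f) : BddC K (deriv f) := by
  obtain ⟨C, hC⟩ := hf.bdd
  refine ⟨?_, C, fun j hj r => ?_⟩
  · have := hf.smooth
    push_cast at this
    exact (contDiff_succ_iff_deriv.1 this).2.2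
  · rw [← iteratedDeriv_succ']
    exact hC _ (by omega) r

theorem bdd_sq {H : ℝ → ℂ} (hH : ContDiff ℝ ∞ H) {a : ℝ} (ha : 0 ≤ a)
    (hb : ∀ j : ℕ, ∃ C : ℝ, ∀ ρ : ℝ, 0 ≤ ρ → ‖iteratedDeriv j H ρ‖ ≤ C * (1 + ρ) ^ (-(a + j)))
    (K : ℕ) : BddC K fun r : ℝ => H (r ^ 2) := by
  choose C hC using Sym.radial (d := 1) hH hb
  refine ⟨(hH.of_le (Sym.le_infty K)).comp (contDiff_id.pow 2),
    ∑ j ∈ Finset.range (K + 1), |C j|, fun j hj r => ?_⟩
  let e : ℝ ≃ₗᵢ[ℝ] Eu 1 := (OrthonormalBasis.singleton (Fin 1) ℝ).repr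
  have h1 : (fun r : ℝ => H (r ^ 2)) = (fun z : Eu 1 => H (‖z‖ ^ 2)) ∘ e := by
    ext t
    simp only [Function.comp_apply, LinearIsometryEquiv.norm_map, Real.norm_eq_abs, sq_abs]
  rw [← norm_iteratedFDeriv_eq_norm_iteratedDeriv, h1,
    LinearIsometryEquiv.norm_iteratedFDeriv_comp_right]
  refine (hC j _).trans ?_
  have h2 : (1 + ‖e r‖) ^ (-(2 * a + j)) ≤ 1 :=
    Real.rpow_le_one_of_one_le_of_nonpos (by simp) (neg_nonpos.2 (by positivity))
  calc C j * (1 + ‖e r‖) ^ (-(2 * a + j)) ≤ |C j| * 1 :=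
        mul_le_mul (le_abs_self _) h2 (by positivity) (abs_nonneg _)
    _ ≤ _ := by
        rw [mul_one]
        exact Finset.single_le_sum (f := fun i => |C i|) (fun _ _ => abs_nonneg _)
          (Finset.mem_range.2 (Nat.lt_succ_iff.2 hj))

end Vale.Agent.P139Z.Modes
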